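import Vale.Agent.P283.M647.Props
import Vale.Agent.P283.A647.B3

/-!
D3. Values and orders in a chart.
-/

set_option linter.all false

namespace Vale.Agent.P283.M647.H91

open MvPolynomial Finset
open Vale.Agent.P283.H647 (cder cder_add cder_C cder_sum cder_mul_X HypData ResForm)
open Vale.Agent.P283.Z647 (IsMinZ inFormZ wtZ HomogZ AtLeastZ minWt coeff_inFormZ isMinZ_minWt
  wtZ_add wtZ_zero)
open Vale.Agent.P283.T647.G3 (Lead AL_zero lead_C lead_X cder_mul cder_X cder_pow cder_prod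
  pow_shift)
open Vale.Agent.P283.A647 (IsRat lin term chartY chartF)
open Vale.Agent.P283.A647.B3 (ul fl chartF_eq eval_fl fl_ne cder_ul cder_fl pe cder_pe pS
  exists_shift)

section Main

variable {d : ℕ} {U : Type} [Fintype U]

/-- The constant terms of the leading parts of the units. -/
noncomputable def al (b : U → ℤ) (A : U → ℂ) (i : U) : ℂ := if b i = 0 then A i else 0

/-- The coefficients of the leading parts of the units. -/
noncomputable def bl (a : Fin (d + 1) → ℤ) (b : U → ℤ) (B : U → Fin d → ℂ) (i : U) (j : Fin d) :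
    ℂ :=
  if a (Fin.succ j) = b i then B i j else 0

/-- The weights of the units are at most the weights of their terms. -/
def Bd (a : Fin (d + 1) → ℤ) (b : U → ℤ) (A : U → ℂ) (B : U → Fin d → ℂ) : Prop :=
  ∀ i, (A i ≠ 0 → b i ≤ 0) ∧ ∀ j, B i j ≠ 0 → b i ≤ a (Fin.succ j)

/-- The weights of the units are attained. -/
def At (a : Fin (d + 1) → ℤ) (b : U → ℤ) (A : U → ℂ) (B : U → Fin d → ℂ) : Prop :=
  ∀ i, (A i ≠ 0 ∧ b i = 0) ∨ ∃ j, B i j ≠ 0 ∧ a (Fin.succ j) = b i

theorem lead_ul {a : Fin (d + 1) → ℤ} {b : U → ℤ} {A : U → ℂ} {B : U → Fin d → ℂ}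
    (hp : Bd a b A B) (i : U) :
    Lead a (b i) (ul A B i) (ul (al b A) (bl a b B) i) := by
  unfold ul
  refine Lead.add ?_ (Lead.sum _ fun j _ => ?_)
  · have h1 := lead_C (a := a) (A i)
    unfold al
    by_cases h : b i = 0
    · rw [if_pos h, h]
      exact h1
    · rw [if_neg h, map_zero]
      by_cases ha : A i = 0
      · rw [ha, map_zero]
        exact Lead.of_gt (n := b i + 1) AL_zero (by omega)
      · exact Lead.of_gt h1.atLeast (lt_of_le_of_ne ((hp i).1 ha) h)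
  · have h1 := (lead_C (a := a) (B i j)).mul (lead_X (a := a) (Fin.succ j))
    rw [zero_add] at h1
    unfold bl
    by_cases h : a (Fin.succ j) = b i
    · rw [if_pos h]
      rw [h] at h1
      exact h1
    · rw [if_neg h, map_zero, zero_mul]
      by_cases hb : B i j = 0
      · rw [hb, map_zero, zero_mul]
        exact Lead.of_gt (n := b i + 1) AL_zero (by omega)
      · exact Lead.of_gt h1.atLeast (lt_of_le_of_ne ((hp i).2 j hb) (Ne.symm h))

theorem lead_f {a : Fin (d + 1) → ℤ} {b : U → ℤ} {A : U → ℂ} {B : U → Fin d → ℂ}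
    (hp : Bd a b A B) (h0 : a 0 = -∑ i, b i) :
    Lead a 0 (chartF d A B) (fl (al b A) (bl a b B)) := by
  rw [chartF_eq]
  unfold fl
  refine Lead.add ?_ (lead_C _)
  have h3 := (lead_X (a := a) 0).mul (Lead.prod (a := a) Finset.univ
    (P := fun i => ul A B i) (G := fun i => ul (al b A) (bl a b B) i) (m := b)
    (fun i _ => lead_ul hp i))
  rw [h0, neg_add_cancel] at h3
  exact h3

theorem al_zero {δ : Derivation ℚ ℂ ℂ} {A : U → ℂ} (hA : ∀ i, δ (A i) = 0)
    (b : U → ℤ) (i : U) : δ (al b A i) = 0 := by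
  unfold al
  split_ifs
  · exact hA i
  · exact map_zero δ

theorem bl_zero {δ : Derivation ℚ ℂ ℂ} {B : U → Fin d → ℂ} (hB : ∀ i j, δ (B i j) = 0)
    (a : Fin (d + 1) → ℤ) (b : U → ℤ) (i : U) (j : Fin d) : δ (bl a b B i j) = 0 := by
  unfold bl
  split_ifs
  · exact hB i j
  · exact map_zero δ

/-- The weight of `pe`. -/
def we (a : Fin (d + 1) → ℤ) (b : U → ℤ) (T : ℕ) (e : (U → ℤ) × (Fin d → ℤ)) : ℤ :=
  ∑ i, ((e.1 i + T).toNat : ℤ) * b i + ∑ j : Fin d, ((e.2 j + T).toNat : ℤ) * a j.succ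

theorem lead_pe {a : Fin (d + 1) → ℤ} {b : U → ℤ} {A : U → ℂ} {B : U → Fin d → ℂ}
    (hp : Bd a b A B) (T : ℕ) (e : (U → ℤ) × (Fin d → ℤ)) :
    Lead a (we a b T e) (pe T A B e) (pe T (al b A) (bl a b B) e) := by
  unfold we pe
  have h1 := Lead.prod (a := a) Finset.univ
    (P := fun i => ul A B i ^ (e.1 i + T).toNat)
    (G := fun i => ul (al b A) (bl a b B) i ^ (e.1 i + T).toNat)
    (m := fun i => ((e.1 i + T).toNat : ℤ) * b i) (fun i _ => (lead_ul hp i).pow _)
  exact h1.mul (Lead.prod (a := a) Finset.univ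
    (P := fun j : Fin d => (X j.succ : MvPolynomial (Fin (d + 1)) ℂ) ^ (e.2 j + T).toNat)
    (G := fun j : Fin d => (X j.succ : MvPolynomial (Fin (d + 1)) ℂ) ^ (e.2 j + T).toNat)
    (m := fun j => ((e.2 j + T).toNat : ℤ) * a j.succ) (fun j _ => (lead_X _).pow _))

theorem ul_ne {A : U → ℂ} {B : U → Fin d → ℂ} {i : U} (h : A i ≠ 0 ∨ B i ≠ 0) :
    ul A B i ≠ 0 := by
  classical
  intro h0
  have hA : A i = 0 := by
    have h1 : eval 0 (ul A B i) = A i := by
      unfold ul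
      rw [map_add, eval_C, map_sum, Finset.sum_eq_zero, add_zero]
      intro j _
      rw [map_mul, eval_X, Pi.zero_apply, mul_zero]
    rw [h0, map_zero] at h1
    exact h1.symm
  have hB : B i = 0 := by
    funext j
    have h1 : eval (Pi.single j.succ 1) (ul A B i) = A i + B i j := by
      unfold ul
      rw [map_add, eval_C, map_sum, Finset.sum_eq_single j]
      · rw [map_mul, eval_X, eval_C, Pi.single_eq_same, mul_one]
      · intro j' _ hj
        rw [map_mul, eval_X, Pi.single_eq_of_ne (fun h => hj (Fin.succ_injective _ h)), mul_zero]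
      · intro hj
        exact absurd (Finset.mem_univ j) hj
    rw [h0, map_zero, hA, zero_add] at h1
    exact h1.symm
  rcases h with h | h
  · exact h hA
  · exact h hB

theorem pe_ne {A : U → ℂ} {B : U → Fin d → ℂ} (h : ∀ i, A i ≠ 0 ∨ B i ≠ 0) (T : ℕ)
    (e : (U → ℤ) × (Fin d → ℤ)) : pe T A B e ≠ 0 := by
  unfold pe
  refine mul_ne_zero ?_ ?_
  · exact Finset.prod_ne_zero_iff.2 fun i _ => pow_ne_zero _ (ul_ne (h i))
  · exact Finset.prod_ne_zero_iff.2 fun i _ => pow_ne_zero _ (X_ne_zero _)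

theorem lead_ne {a : Fin (d + 1) → ℤ} {b : U → ℤ} {A : U → ℂ} {B : U → Fin d → ℂ}
    (hat : At a b A B) (i : U) : al b A i ≠ 0 ∨ bl a b B i ≠ 0 := by
  rcases hat i with ⟨h1, h2⟩ | ⟨j, h1, h2⟩
  · left
    unfold al
    rwa [if_pos h2]
  · right
    intro h
    have h3 := congrFun h j
    unfold bl at h3
    rw [if_pos h2] at h3
    exact h1 h3

/-- The leading part. -/
noncomputable def gS (a : Fin (d + 1) → ℤ) (b : U → ℤ) (T : ℕ) (A : U → ℂ) (B : U → Fin d → ℂ)
    (Ee : Finset ((U → ℤ) × (Fin d → ℤ))) (lam : (U → ℤ) × (Fin d → ℤ) → ℂ)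
    (e₀ : (U → ℤ) × (Fin d → ℤ)) : MvPolynomial (Fin (d + 1)) ℂ :=
  ∑ e ∈ Ee, if we a b T e = we a b T e₀ then C (lam e) * pe T (al b A) (bl a b B) e else 0

variable {A : U → ℂ} {B : U → Fin d → ℂ} {Ee : Finset ((U → ℤ) × (Fin d → ℤ))}
  {lam : (U → ℤ) × (Fin d → ℤ) → ℂ}

theorem lead_S {a : Fin (d + 1) → ℤ} {b : U → ℤ} (hp : Bd a b A B) (T : ℕ)
    {e₀ : (U → ℤ) × (Fin d → ℤ)} (hmin : ∀ e ∈ Ee, we a b T e₀ ≤ we a b T e) :
    Lead a (we a b T e₀) (pS T A B Ee lam) (gS a b T A B Ee lam e₀) := by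
  unfold pS gS
  refine Lead.sum _ fun e he => ?_
  have h1 := (lead_C (a := a) (lam e)).mul (lead_pe hp T e)
  rw [zero_add] at h1
  split_ifs with h
  · rw [h] at h1
    exact h1
  · exact Lead.of_gt h1.atLeast (lt_of_le_of_ne (hmin e he) (Ne.symm h))

theorem cder_gS {a : Fin (d + 1) → ℤ} {b : U → ℤ} {T : ℕ} {e₀ : (U → ℤ) × (Fin d → ℤ)}
    (he₀ : e₀ ∈ Ee) {δ : Derivation ℚ ℂ ℂ} (hA : ∀ i, δ (A i) = 0) (hB : ∀ i j, δ (B i j) = 0)
    (h1 : δ (lam e₀) = 1) (h2 : ∀ e ∈ Ee, e ≠ e₀ → δ (lam e) = 0) (ξ : Fin (d + 1) → ℂ) :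
    cder δ ξ (gS a b T A B Ee lam e₀) = eval ξ (pe T (al b A) (bl a b B) e₀) := by
  unfold gS
  rw [cder_sum, Finset.sum_eq_single_of_mem e₀ he₀]
  · rw [if_pos rfl, cder_mul, cder_C, h1, cder_pe (al_zero hA b) (bl_zero hB a b), one_mul,
      mul_zero, add_zero]
  · intro e he hne
    split_ifs
    · rw [cder_mul, cder_C, h2 e he hne, cder_pe (al_zero hA b) (bl_zero hB a b), zero_mul,
        mul_zero, add_zero]
    · rw [← map_zero C, cder_C, map_zero]

variable (hlam : ∀ e₀ ∈ Ee, ∃ δ : Derivation ℚ ℂ ℂ, (∀ i, δ (A i) = 0) ∧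
  (∀ i j, δ (B i j) = 0) ∧ δ (lam e₀) = 1 ∧ ∀ e ∈ Ee, e ≠ e₀ → δ (lam e) = 0)

include hlam

theorem gS_ne {a : Fin (d + 1) → ℤ} {b : U → ℤ} (hat : At a b A B) {T : ℕ}
    {e₀ : (U → ℤ) × (Fin d → ℤ)} (he₀ : e₀ ∈ Ee) : gS a b T A B Ee lam e₀ ≠ 0 := by
  intro h
  obtain ⟨δ, h1, h2, h3, h4⟩ := hlam e₀ he₀
  apply pe_ne (lead_ne hat) T e₀
  apply MvPolynomial.funext
  intro ξ
  rw [← cder_gS he₀ h1 h2 h3 h4 ξ, h, ← map_zero C, cder_C, map_zero, map_zero, map_zero]

/-- General position. -/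
theorem genpos {a : Fin (d + 1) → ℤ} {b : U → ℤ} (hp : Bd a b A B) (hat : At a b A B)
    (h0 : a 0 = -∑ i, b i) (T : ℕ) {e₀ : (U → ℤ) × (Fin d → ℤ)} (he₀ : e₀ ∈ Ee)
    (hmin : ∀ e ∈ Ee, we a b T e₀ ≤ we a b T e) (ξ : Fin (d + 1) → ℂ) (hξ : ∀ j, ξ j ≠ 0)
    (hf : eval ξ (inFormZ (chartF d A B) a) = 0) (t₀ t : ℂ)
    (ht : eval ξ (inFormZ (pS T A B Ee lam) a) ≠ 0 → t = 0)
    (hrel : ∀ j, t₀ * eval ξ (pderiv j (inFormZ (chartF d A B) a)) +
      t * eval ξ (pderiv j (inFormZ (pS T A B Ee lam) a)) = 0) : t₀ = 0 ∧ t = 0 := by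
  obtain ⟨δ, hδ1, hδ2, hδ3, hδ4⟩ := hlam e₀ he₀
  rw [((lead_f hp h0).isMin (fl_ne (al b A) (bl a b B))).2] at hf hrel
  rw [((lead_S hp T hmin).isMin (gS_ne hlam hat he₀)).2] at ht hrel
  have hg : ξ 0 * ∏ i, eval ξ (ul (al b A) (bl a b B) i) = 1 := by
    rw [eval_fl] at hf
    linear_combination hf
  have hgi : ∏ i, eval ξ (ul (al b A) (bl a b B) i) ≠ 0 := by
    intro h
    rw [h, mul_zero] at hg
    exact zero_ne_one hg
  have hge : eval ξ (pe T (al b A) (bl a b B) e₀) ≠ 0 := by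
    unfold pe
    rw [map_mul, map_prod, map_prod]
    refine mul_ne_zero ?_ ?_
    · refine Finset.prod_ne_zero_iff.2 fun i _ => ?_
      rw [map_pow]
      exact pow_ne_zero _ (Finset.prod_ne_zero_iff.1 hgi i (Finset.mem_univ i))
    · refine Finset.prod_ne_zero_iff.2 fun i _ => ?_
      rw [map_pow, eval_X]
      exact pow_ne_zero _ (hξ _)
  have ht' : t = 0 := by
    by_cases hs : eval ξ (gS a b T A B Ee lam e₀) = 0
    · have hdf : ∑ i, eval ξ (pderiv i (fl (al b A) (bl a b B))) * δ (ξ i) = 0 := by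
        have h2 := cder_fl (al_zero hδ1 b) (bl_zero hδ2 a b) ξ
        unfold cder at h2
        rw [hf, map_zero, zero_sub, neg_eq_zero] at h2
        exact h2
      have hds : ∑ i, eval ξ (pderiv i (gS a b T A B Ee lam e₀)) * δ (ξ i) =
          - eval ξ (pe T (al b A) (bl a b B) e₀) := by
        have h2 := cder_gS (a := a) (b := b) (T := T) he₀ hδ1 hδ2 hδ3 hδ4 ξ
        unfold cder at h2
        rw [hs, map_zero, zero_sub] at h2
        rw [← h2, neg_neg]
      have hsum : ∑ j, (t₀ * eval ξ (pderiv j (fl (al b A) (bl a b B))) +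
          t * eval ξ (pderiv j (gS a b T A B Ee lam e₀))) * δ (ξ j) = 0 :=
        Finset.sum_eq_zero fun j _ => by rw [hrel j, zero_mul]
      have hexp : ∑ j, (t₀ * eval ξ (pderiv j (fl (al b A) (bl a b B))) +
          t * eval ξ (pderiv j (gS a b T A B Ee lam e₀))) * δ (ξ j) =
          t₀ * ∑ j, eval ξ (pderiv j (fl (al b A) (bl a b B))) * δ (ξ j) +
          t * ∑ j, eval ξ (pderiv j (gS a b T A B Ee lam e₀)) * δ (ξ j) := by
        rw [Finset.mul_sum, Finset.mul_sum, ← Finset.sum_add_distrib]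
        exact Finset.sum_congr rfl fun j _ => by ring
      rw [hexp, hdf, hds, mul_zero, zero_add] at hsum
      exact (mul_eq_zero.1 hsum).resolve_right (neg_ne_zero.2 hge)
    · exact ht hs
  refine ⟨?_, ht'⟩
  have h2 := hrel 0
  rw [ht', zero_mul, add_zero] at h2
  refine (mul_eq_zero.1 h2).resolve_right ?_
  have h3 : eval ξ (pderiv 0 (fl (al b A) (bl a b B))) =
      ∏ i, eval ξ (ul (al b A) (bl a b B) i) := by
    have h4 : ∀ i, pderiv (0 : Fin (d + 1)) (ul (al b A) (bl a b B) i) = 0 := by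
      intro i
      unfold ul
      rw [map_add, pderiv_C, map_sum, zero_add]
      refine Finset.sum_eq_zero fun j _ => ?_
      have h5 : pderiv (0 : Fin (d + 1)) (X j.succ : MvPolynomial (Fin (d + 1)) ℂ) = 0 :=
        pderiv_X_of_ne (Fin.succ_ne_zero j)
      rw [Derivation.leibniz, pderiv_C, h5]
      simp
    have h6 : ∀ s : Finset U, pderiv (0 : Fin (d + 1))
        (∏ i ∈ s, ul (al b A) (bl a b B) i) = 0 := by
      intro s
      classical
      induction s using Finset.induction_on with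
      | empty => rw [Finset.prod_empty, Derivation.map_one_eq_zero]
      | insert j s hj ih =>
        rw [Finset.prod_insert hj, Derivation.leibniz, ih, h4]; simp
    unfold fl
    rw [map_add, pderiv_C, add_zero, Derivation.leibniz, h6, pderiv_X_self]
    simp
  rw [h3]
  exact hgi

end Main

/-- Without cancellation the weights are attained. -/
theorem at_of_noCan {L : Type} [Field L] [Algebra ℂ L] {d : ℕ} {U : Type} [Fintype U]
    {y : Fin d → L} {A : U → ℂ} {B : U → Fin d → ℂ} {w : AddValuation L (WithTop ℤ)}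
    (hw : ∀ c : ℂ, c ≠ 0 → w (algebraMap ℂ L c) = 0) (hy : ∀ j, y j ≠ 0)
    (hlin : ∀ i, lin y A B i ≠ 0) (hnc : NoCan w y A B) (i : U) :
    (A i ≠ 0 ∧ ov w (lin y A B i) = 0) ∨
      ∃ j, B i j ≠ 0 ∧ ov w (y j) = ov w (lin y A B i) := by
  classical
  by_contra hcon
  push Not at hcon
  obtain ⟨h1, h2⟩ := hcon
  have h3 : ((ov w (lin y A B i) + 1 : ℤ) : WithTop ℤ) ≤ w (lin y A B i) := by
    have hA : ((ov w (lin y A B i) + 1 : ℤ) : WithTop ℤ) ≤ w (algebraMap ℂ L (A i)) := by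
      by_cases hA0 : A i = 0
      · rw [hA0, map_zero, AddValuation.map_zero]
        exact le_top
      · rw [hw _ hA0]
        have h4 := (hnc i).1 hA0
        have h5 := h1 hA0
        have h6 : ov w (lin y A B i) + 1 ≤ 0 := by omega
        exact_mod_cast h6
    have hB : ((ov w (lin y A B i) + 1 : ℤ) : WithTop ℤ) ≤
        w (∑ j, algebraMap ℂ L (B i j) * y j) := by
      apply AddValuation.map_le_sum
      intro j _
      by_cases hB0 : B i j = 0
      · rw [hB0, map_zero, zero_mul, AddValuation.map_zero]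
        exact le_top
      · rw [AddValuation.map_mul, hw _ hB0, zero_add, ← coe_ov w (hy j)]
        have h4 := (hnc i).2 j hB0
        have h5 := h2 j hB0
        have h6 : ov w (lin y A B i) + 1 ≤ ov w (y j) := by omega
        exact_mod_cast h6
    exact le_trans (le_min hA hB) (AddValuation.map_add w _ _)
  rw [← coe_ov w (hlin i)] at h3
  have h4 : ov w (lin y A B i) + 1 ≤ ov w (lin y A B i) := by exact_mod_cast h3
  omega

/-- D3. -/
theorem d3 (hH : ChartHyp) (hR : ChartRes) : ChartBound := by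
  classical
  intro d U _ L _ _ y A B hd hrat hne0 Ee lam hne hlam
  obtain ⟨k, rfl⟩ : ∃ k, d = k + 1 := ⟨d - 1, by omega⟩
  have H := hH (k + 1) U L y A B hrat hne0
  obtain ⟨T, hT⟩ := exists_shift Ee
  have hy0 : ∀ l, y l ≠ 0 := fun l => H.x0 l.succ
  have hQ0 : (∏ i, lin y A B i) ≠ 0 := by
    have h1 : (∏ i, lin y A B i)⁻¹ ≠ 0 := H.x0 0
    intro h
    rw [h, inv_zero] at h1
    exact h1 rfl
  have hlin : ∀ i, lin y A B i ≠ 0 := fun i => Finset.prod_ne_zero_iff.1 hQ0 i (Finset.mem_univ i)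
  have hyp : (∏ l, y l) ≠ 0 := Finset.prod_ne_zero_iff.2 fun l _ => hy0 l
  obtain ⟨e₁, he₁⟩ := hne
  have hwe0 : ∀ e : (U → ℤ) × (Fin (k + 1) → ℤ), we (0 : Fin (k + 2) → ℤ) 0 T e = 0 := by
    intro e
    unfold we
    simp
  have hp0 : Bd (0 : Fin (k + 2) → ℤ) 0 A B := fun i => ⟨fun _ => le_rfl, fun _ _ => le_rfl⟩
  have hat0 : At (0 : Fin (k + 2) → ℤ) 0 A B := by
    intro i
    rcases hne0 i with h | h
    · exact Or.inl ⟨h, rfl⟩
    · right
      by_contra hcon
      push Not at hcon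
      apply h
      funext j
      by_contra hj
      exact hcon j hj rfl
  have hz0 : (0 : Fin (k + 2) → ℤ) 0 = -∑ i : U, (0 : U → ℤ) i := by simp
  have hS0 : pS T A B Ee lam ≠ 0 := by
    intro h
    have h1 := ((lead_S (A := A) (B := B) (lam := lam) (a := (0 : Fin (k + 2) → ℤ)) (b := 0) hp0 T
      (e₀ := e₁) (fun e _ => by rw [hwe0, hwe0])).isMin (gS_ne hlam hat0 he₁)).1
    rw [h] at h1
    obtain ⟨⟨α, hα, -⟩, -⟩ := h1
    simp at hα
  have hSy : aeval (chartY y A B) (pS T A B Ee lam) =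
      (∑ e ∈ Ee, algebraMap ℂ L (lam e) * term y A B e) *
        ((∏ i, lin y A B i) ^ T * (∏ l, y l) ^ T) := by
    unfold pS
    rw [map_sum, Finset.sum_mul]
    refine Finset.sum_congr rfl fun e he => ?_
    obtain ⟨h1, h2⟩ := hT e he
    have e2 : ∀ l : Fin (k + 1), aeval (chartY y A B) (X l.succ :
        MvPolynomial (Fin (k + 2)) ℂ) = y l := by
      intro l
      rw [aeval_X]; rfl
    have e1 : ∀ i, aeval (chartY y A B) (ul A B i) = lin y A B i := by
      intro i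
      unfold ul lin
      rw [map_add, map_sum, aeval_C]
      congr 1
      refine Finset.sum_congr rfl fun j _ => ?_
      rw [map_mul, e2, aeval_C]
    unfold pe term
    rw [map_mul, aeval_C, map_mul, map_prod, map_prod]
    simp only [map_pow, e1, e2]
    rw [Finset.prod_congr rfl fun i _ => pow_shift (hlin i) (h1 i),
      Finset.prod_congr rfl fun l _ => pow_shift (hy0 l) (h2 l), Finset.prod_mul_distrib,
      Finset.prod_mul_distrib, Finset.prod_pow, Finset.prod_pow]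
    ring
  have hSne : aeval (chartY y A B) (pS T A B Ee lam) ≠ 0 := by
    refine Z647.aeval_neZ (s := 0) (v := (Fin.elim0 : Fin 0 → Fin (k + 2) → ℤ))
      (g := (Fin.elim0 : Fin 0 → MvPolynomial (Fin (k + 2)) ℂ)) H hS0 ?_
    intro a ha ξ hξ hf t₀ t t' _ ht' hrel
    have ha0 : a = 0 := by
      obtain ⟨c, -, hc⟩ := ha
      funext j
      have := hc j
      rw [Finset.univ_eq_empty, Finset.sum_empty] at this
      exact_mod_cast this
    subst ha0
    have h1 := genpos (A := A) (B := B) (lam := lam) hlam (a := (0 : Fin (k + 2) → ℤ)) (b := 0)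
      hp0 hat0 hz0 T he₁ (fun e _ => by rw [hwe0, hwe0]) ξ hξ hf t₀ t' ht' (fun j => by
        have := hrel j
        rw [Finset.univ_eq_empty, Finset.sum_empty, add_zero] at this
        exact this)
    exact ⟨h1.1, h1.2, fun i => i.elim0⟩
  have hF0 : (∑ e ∈ Ee, algebraMap ℂ L (lam e) * term y A B e) ≠ 0 := by
    intro h
    rw [hSy, h, zero_mul] at hSne
    exact hSne rfl
  refine ⟨hF0, ?_⟩
  intro w hw hnc D' h hjac m' hm' e₀ he₀ hmin
  have h0 : h ≠ 0 := by
    rintro rfl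
    rw [zero_mul] at hjac
    exact zero_ne_one hjac
  have R := hR (k + 1) U L y A B hrat hne0 D' h hjac
  -- the weights
  obtain ⟨a, ha⟩ : ∃ a : Fin (k + 2) → ℤ, ∀ j, a j = ov w (chartY y A B j) := ⟨_, fun _ => rfl⟩
  obtain ⟨b, hb'⟩ : ∃ b : U → ℤ, ∀ i, b i = ov w (lin y A B i) := ⟨_, fun _ => rfl⟩
  have hal : ∀ l : Fin (k + 1), a l.succ = ov w (y l) := fun l => ha l.succ
  have hQv : ov w (∏ i, lin y A B i) = ∑ i, b i := by
    rw [ov_prod _ _ fun i _ => hlin i]
    exact Finset.sum_congr rfl fun i _ => (hb' i).symm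
  have ha0 : a 0 = -∑ i, b i := by
    rw [ha 0]
    show ov w (∏ i, lin y A B i)⁻¹ = _
    rw [ov_inv, hQv]
  have hap : Bd a b A B := by
    intro i
    refine ⟨fun h => ?_, fun j h => ?_⟩
    · rw [hb']
      exact (hnc i).1 h
    · rw [hb', hal]
      exact (hnc i).2 j h
  have hat : At a b A B := by
    intro i
    rcases at_of_noCan hw.const hy0 hlin hnc i with ⟨h1, h2⟩ | ⟨j, h1, h2⟩
    · exact Or.inl ⟨h1, by rw [hb', h2]⟩
    · exact Or.inr ⟨j, h1, by rw [hb', hal, h2]⟩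
  have hweq : ∀ e ∈ Ee, we a b T e = twt w y A B e + T * (∑ i, b i + ∑ l, ov w (y l)) := by
    intro e he
    obtain ⟨h1, h2⟩ := hT e he
    have e1 : ∑ i, ((e.1 i + T).toNat : ℤ) * b i = ∑ i, e.1 i * b i + T * ∑ i, b i := by
      rw [Finset.mul_sum, ← Finset.sum_add_distrib]
      refine Finset.sum_congr rfl fun i _ => ?_
      rw [Int.toNat_of_nonneg (h1 i)]
      ring
    have e2 : ∑ j : Fin (k + 1), ((e.2 j + T).toNat : ℤ) * a j.succ =
        ∑ j, e.2 j * ov w (y j) + T * ∑ l, ov w (y l) := by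
      rw [Finset.mul_sum, ← Finset.sum_add_distrib]
      refine Finset.sum_congr rfl fun l _ => ?_
      rw [Int.toNat_of_nonneg (h2 l), hal]
      ring
    unfold we twt
    rw [e1, e2, Finset.sum_congr rfl fun i _ => by rw [hb' i]]
    ring
  have hmin' : ∀ e ∈ Ee, we a b T e₀ ≤ we a b T e := by
    intro e he
    rw [hweq e he, hweq e₀ he₀]
    have := hmin e he
    linarith
  have hb : ∀ j, w (chartY y A B j) = (a j : WithTop ℤ) := by
    intro j
    rw [ha j, coe_ov w (H.x0 j)]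
  have key := Z647.X_bound_aux (s := 0) H R (fun _ => pS T A B Ee lam) (fun _ => hS0)
    (fun _ => hSne) a (by
      intro ξ hξ hf t₀ t ht hrel
      have h1 := genpos (A := A) (B := B) (lam := lam) hlam hap hat ha0 T he₀ hmin' ξ hξ hf t₀
        (t none) (ht none) (fun j => by
          have := hrel j
          rw [Fintype.sum_option, Finset.univ_eq_empty, Finset.sum_empty, add_zero] at this
          exact this)
      refine ⟨h1.1, ?_⟩
      rintro (_ | i)
      · exact h1.2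
      · exact i.elim0)
    hw hb hm'
  rw [Fintype.sum_option, Fin.sum_univ_zero, add_zero] at key
  have hmf : minWt (chartF (k + 1) A B) a = 0 :=
    (isMinZ_minWt H.f0 a).unique ((lead_f hap ha0).isMin (fl_ne (al b A) (bl a b B))).1
  have hms : minWt (pS T A B Ee lam) a = we a b T e₀ :=
    (isMinZ_minWt hS0 a).unique ((lead_S hap T hmin').isMin (gS_ne hlam hat he₀)).1
  have hsa : ∑ j, a j = -∑ i, b i + ∑ l, ov w (y l) := by
    rw [Fin.sum_univ_succ, ha0]
    congr 1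
    exact Finset.sum_congr rfl fun l _ => hal l
  have hvh : ov w ((∏ i, lin y A B i) * h) = ∑ i, b i + ov w h := by
    rw [ov_mul w hQ0 h0, hQv]
  have hvS : ov w (aeval (chartY y A B) (pS T A B Ee lam)) =
      ov w (∑ e ∈ Ee, algebraMap ℂ L (lam e) * term y A B e) +
        T * (∑ i, b i + ∑ l, ov w (y l)) := by
    rw [hSy, ov_mul w hF0 (mul_ne_zero (pow_ne_zero _ hQ0) (pow_ne_zero _ hyp)),
      ov_mul w (pow_ne_zero _ hQ0) (pow_ne_zero _ hyp), ov_pow w hQ0, ov_pow w hyp, hQv,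
      ov_prod _ _ fun l _ => hy0 l]
    ring
  rw [hmf, hms, hsa, hvh, hvS, hweq e₀ he₀] at key
  linarith

end Vale.Agent.P283.M647.H91
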