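import Vale.Agent.P283.M647.H91.D3
import Vale.Agent.P283.Z647.Lc

/-!
D4. Divisorial valuations with given weights in a chart.
-/

set_option linter.all false

namespace Vale.Agent.P283.M647.H91

open MvPolynomial Finset
open Vale.Agent.P283.H647 (ResForm HypData DiagData)
open Vale.Agent.P283.Z647 (wtZ IsMinZ RegZ inFormZ psi_valZ coeff_inFormZ)
open Vale.Agent.P283.T647.G3 (Lead)
open Vale.Agent.P283.A647 (IsRat lin term chartY chartF)
open Vale.Agent.P283.A647.B3 (ul fl chartF_eq eval_fl fl_ne)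

section Eqn

variable {d : ℕ} {U : Type} [Fintype U]

theorem pderiv_fl (A : U → ℂ) (B : U → Fin d → ℂ) :
    pderiv 0 (fl A B) = ∏ i, ul A B i := by
  classical
  have h4 : ∀ i, pderiv (0 : Fin (d + 1)) (ul A B i) = 0 := by
    intro i
    unfold ul
    rw [map_add, pderiv_C, map_sum, zero_add]
    refine Finset.sum_eq_zero fun j _ => ?_
    have h5 : pderiv (0 : Fin (d + 1)) (X j.succ : MvPolynomial (Fin (d + 1)) ℂ) = 0 :=
      pderiv_X_of_ne (Fin.succ_ne_zero j)
    rw [Derivation.leibniz, pderiv_C, h5]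
    simp
  have h6 : ∀ s : Finset U, pderiv (0 : Fin (d + 1)) (∏ i ∈ s, ul A B i) = 0 := by
    intro s
    induction s using Finset.induction_on with
    | empty => rw [Finset.prod_empty, Derivation.map_one_eq_zero]
    | insert j s hj ih =>
      rw [Finset.prod_insert hj, Derivation.leibniz, ih, h4]; simp
  unfold fl
  rw [map_add, pderiv_C, add_zero, Derivation.leibniz, h6, pderiv_X_self]
  simp

theorem reg_chart {a : Fin (d + 1) → ℤ} {b : U → ℤ} {A : U → ℂ} {B : U → Fin d → ℂ}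
    (hp : Bd a b A B) (h0 : a 0 = -∑ i, b i) : RegZ (chartF d A B) a := by
  intro ξ hξ hf
  refine ⟨0, ?_⟩
  rw [((lead_f hp h0).isMin (fl_ne (al b A) (bl a b B))).2] at hf ⊢
  rw [pderiv_fl, map_prod]
  rw [eval_fl] at hf
  intro h
  rw [h, mul_zero, zero_sub, neg_eq_zero] at hf
  exact one_ne_zero hf

theorem coeff_zero_fl (A : U → ℂ) (B : U → Fin d → ℂ) : coeff 0 (fl A B) = -1 := by
  classical
  unfold fl
  rw [coeff_add, coeff_X_mul', if_neg (by simp), coeff_C, if_pos rfl, zero_add]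

/-- A second term of the leading part. -/
theorem exists_term {a : Fin (d + 1) → ℤ} {b : U → ℤ} {A : U → ℂ} {B : U → Fin d → ℂ}
    (hp : Bd a b A B) (hat : At a b A B) (h0 : a 0 = -∑ i, b i) :
    ∃ β ∈ (chartF d A B).support, wtZ a β = 0 ∧ (0 : Fin (d + 1) →₀ ℕ) ≠ β := by
  classical
  have hm := (lead_f hp h0).isMin (fl_ne (al b A) (bl a b B))
  have hQ : (∏ i, ul (al b A) (bl a b B) i) ≠ 0 :=
    Finset.prod_ne_zero_iff.2 fun i _ => ul_ne (lead_ne hat i)
  obtain ⟨α, hα⟩ := support_nonempty.2 hQ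
  have hne : (0 : Fin (d + 1) →₀ ℕ) ≠ Finsupp.single 0 1 + α := by
    intro h
    have h1 := DFunLike.congr_fun h 0
    rw [Finsupp.add_apply, Finsupp.single_eq_same] at h1
    simp at h1
    omega
  have h1 : coeff (Finsupp.single 0 1 + α) (fl (al b A) (bl a b B)) ≠ 0 := by
    unfold fl
    rw [coeff_add, coeff_X_mul, coeff_C, if_neg hne, add_zero]
    exact mem_support_iff.1 hα
  rw [← hm.2, coeff_inFormZ hm.1] at h1
  by_cases hw : wtZ a (Finsupp.single 0 1 + α) = 0
  · rw [if_pos hw] at h1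
    exact ⟨_, mem_support_iff.2 h1, hw, hne⟩
  · rw [if_neg hw] at h1
    exact absurd rfl h1

theorem coeff_zero_chartF (A : U → ℂ) (B : U → Fin d → ℂ) : coeff 0 (chartF d A B) = -1 := by
  rw [chartF_eq]
  exact coeff_zero_fl A B

/-- The weights of the units. -/
theorem exists_wt {A : U → ℂ} {B : U → Fin d → ℂ} (h : ∀ i, A i ≠ 0 ∨ B i ≠ 0)
    (ω : Fin d → ℤ) : ∃ b : U → ℤ, Bd (Fin.cons (-∑ i, b i) ω) b A B ∧
      At (Fin.cons (-∑ i, b i) ω) b A B := by
  classical
  have h1 : ∀ i, ∃ b : ℤ, ((A i ≠ 0 → b ≤ 0) ∧ ∀ j, B i j ≠ 0 → b ≤ ω j) ∧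
      ((A i ≠ 0 ∧ b = 0) ∨ ∃ j, B i j ≠ 0 ∧ ω j = b) := by
    intro i
    obtain ⟨o, ho, hmin⟩ := Finset.exists_min_image
      (Finset.univ.filter fun o : Option (Fin d) => o.elim (A i) (B i) ≠ 0)
      (fun o => o.elim 0 ω) (by
        rcases h i with h2 | h2
        · exact ⟨none, by rw [Finset.mem_filter]; exact ⟨Finset.mem_univ _, h2⟩⟩
        · obtain ⟨j, hj⟩ := Function.ne_iff.1 h2
          exact ⟨some j, by rw [Finset.mem_filter]; exact ⟨Finset.mem_univ _, hj⟩⟩)
    rw [Finset.mem_filter] at ho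
    refine ⟨o.elim 0 ω, ⟨fun hA => ?_, fun j hj => ?_⟩, ?_⟩
    · exact hmin none (by rw [Finset.mem_filter]; exact ⟨Finset.mem_univ _, hA⟩)
    · exact hmin (some j) (by rw [Finset.mem_filter]; exact ⟨Finset.mem_univ _, hj⟩)
    · cases o with
      | none => exact Or.inl ⟨ho.2, rfl⟩
      | some j => exact Or.inr ⟨j, ho.2, rfl⟩
  choose b hb1 hb2 using h1
  refine ⟨b, fun i => ⟨(hb1 i).1, fun j hj => ?_⟩, fun i => ?_⟩
  · rw [Fin.cons_succ]
    exact (hb1 i).2 j hj
  · rcases hb2 i with h2 | ⟨j, h2, h3⟩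
    · exact Or.inl h2
    · exact Or.inr ⟨j, h2, by rw [Fin.cons_succ]; exact h3⟩

end Eqn

/-- D4. -/
theorem d4 (hyp : ChartHyp) (res : ChartRes) : ChartExist := by
  classical
  intro d U _ L _ _ y A B hd hrat hne0 ω hω0
  obtain ⟨d, rfl⟩ : ∃ e, d = e + 1 := ⟨d - 1, by omega⟩
  have H := hyp (d + 1) U L y A B hrat hne0
  obtain ⟨b, hBd, hAt⟩ := exists_wt hne0 ω
  obtain ⟨a, ha⟩ : ∃ a : Fin (d + 1 + 1) → ℤ, a = Fin.cons (-∑ i, b i) ω := ⟨_, rfl⟩
  rw [← ha] at hBd hAt
  have has : ∀ l, a (Fin.succ l) = ω l := fun l => by rw [ha, Fin.cons_succ]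
  have haz : a 0 = -∑ i, b i := by rw [ha, Fin.cons_zero]
  have ha0 : a ≠ 0 := by
    intro h
    apply hω0
    funext l
    rw [← has, h]
    rfl
  have hmin : IsMinZ (chartF (d + 1) A B) a 0 :=
    ((lead_f hBd haz).isMin (fl_ne (al b A) (bl a b B))).1
  have hreg : RegZ (chartF (d + 1) A B) a := reg_chart hBd haz
  have hα : (0 : Fin (d + 1 + 1) →₀ ℕ) ∈ (chartF (d + 1) A B).support := by
    rw [mem_support_iff, coeff_zero_chartF]; norm_num
  have hαw : wtZ a 0 = 0 := by simp [wtZ]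
  obtain ⟨β, hβ, hβw, hαβ⟩ := exists_term hBd hAt haz
  have HD : DiagData L (chartY y A B) (chartF (d + 1) A B) (⊥ : Subgroup (L ≃ₐ[ℂ] L)) :=
    { gen := H.gen
      ker := H.ker
      f0 := H.f0
      x0 := H.x0
      fin := inferInstance
      diag := by
        intro τ hτ j
        rw [Subgroup.mem_bot] at hτ
        exact ⟨1, by rw [hτ]; simp⟩
      fix := by
        intro z
        refine ⟨fun _ τ hτ => ?_, fun _ => ⟨z, rfl⟩⟩
        rw [Subgroup.mem_bot] at hτ
        rw [hτ]; rfl }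
  obtain ⟨c₁, e₀, v', w, hc₁, he₀, hv', hw, hvw, hx, hord⟩ :=
    psi_valZ HD a hreg ha0 1 one_pos (fun _ _ => by simp) hmin hα hβ hαw hβw hαβ
  have he1 : e₀ = 1 := by
    obtain ⟨t, ht⟩ := hw.normalized
    have ht0 : t ≠ 0 := ne_zero_of_eq w (n := 1) (by simpa using ht)
    have h1 := hvw t
    have h2 : (algebraMap L L t) = t := rfl
    rw [h2, ht, ← coe_ov v' ht0, ← WithTop.coe_nsmul, nsmul_eq_mul] at h1
    have h3 : (1 : ℤ) = e₀ * ov v' t := by exact_mod_cast h1
    have h4 : (e₀ : ℤ) ∣ 1 := ⟨_, h3⟩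
    have h5 := Int.eq_one_of_dvd_one (by positivity) h4
    exact_mod_cast h5
  subst he1
  have hxA : ∀ j, (c₁ : ℤ) * ov w (chartY y A B j) = a j := by
    intro j
    have h1 := hx j
    push_cast at h1
    rw [one_mul, one_mul] at h1
    exact h1
  have hc0 : (0 : ℤ) < c₁ := by exact_mod_cast hc₁
  have hwz : ∀ l, (c₁ : ℤ) * ov w (y l) = ω l := fun l => (hxA l.succ).trans (has l)
  have hwp : (c₁ : ℤ) * ov w (∏ i, lin y A B i) = ∑ i, b i := by
    have h1 := hxA 0
    have h2 : chartY y A B 0 = (∏ i, lin y A B i)⁻¹ := rfl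
    rw [h2, haz, ov_inv] at h1
    linarith
  have hp0 : ∏ i, lin y A B i ≠ 0 := by
    have h1 := H.x0 0
    have h2 : chartY y A B 0 = (∏ i, lin y A B i)⁻¹ := rfl
    rw [h2] at h1
    exact fun h => h1 (by rw [h, inv_zero])
  have hl0 : ∀ i, lin y A B i ≠ 0 := fun i => Finset.prod_ne_zero_iff.1 hp0 i (Finset.mem_univ i)
  have hy0 : ∀ j, y j ≠ 0 := fun j => H.x0 j.succ
  have hln : ∀ i, b i ≤ (c₁ : ℤ) * ov w (lin y A B i) := by
    intro i
    by_contra hcon
    push Not at hcon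
    have h3 : ((ov w (lin y A B i) + 1 : ℤ) : WithTop ℤ) ≤ w (lin y A B i) := by
      have hA : ((ov w (lin y A B i) + 1 : ℤ) : WithTop ℤ) ≤ w (algebraMap ℂ L (A i)) := by
        by_cases hA0 : A i = 0
        · rw [hA0, map_zero, AddValuation.map_zero]
          exact le_top
        · rw [hw.const _ hA0]
          have h4 := (hBd i).1 hA0
          have h5 : (c₁ : ℤ) * ov w (lin y A B i) < c₁ * 0 := by rw [mul_zero]; linarith
          have h6 := lt_of_mul_lt_mul_left h5 hc0.le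
          have h7 : ov w (lin y A B i) + 1 ≤ 0 := by omega
          exact_mod_cast h7
      have hB : ((ov w (lin y A B i) + 1 : ℤ) : WithTop ℤ) ≤
          w (∑ j, algebraMap ℂ L (B i j) * y j) := by
        apply AddValuation.map_le_sum
        intro j _
        by_cases hB0 : B i j = 0
        · rw [hB0, map_zero, zero_mul, AddValuation.map_zero]
          exact le_top
        · rw [AddValuation.map_mul, hw.const _ hB0, zero_add, ← coe_ov w (hy0 j)]
          have h4 := (hBd i).2 j hB0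
          rw [has, ← hwz] at h4
          have h5 : (c₁ : ℤ) * ov w (lin y A B i) < c₁ * ov w (y j) := lt_of_lt_of_le hcon h4
          have h6 := lt_of_mul_lt_mul_left h5 hc0.le
          have h7 : ov w (lin y A B i) + 1 ≤ ov w (y j) := by omega
          exact_mod_cast h7
      exact le_trans (le_min hA hB) (AddValuation.map_add w _ _)
    rw [← coe_ov w (hl0 i)] at h3
    have h4 : ov w (lin y A B i) + 1 ≤ ov w (lin y A B i) := by exact_mod_cast h3
    omega
  have hl : ∀ i, (c₁ : ℤ) * ov w (lin y A B i) = b i := by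
    rw [ov_prod _ _ fun i _ => hl0 i, Finset.mul_sum] at hwp
    intro i
    have h1 : ∑ i, ((c₁ : ℤ) * ov w (lin y A B i) - b i) = 0 := by
      rw [Finset.sum_sub_distrib, hwp, sub_self]
    have h2 := (Finset.sum_eq_zero_iff_of_nonneg fun i _ => sub_nonneg.2 (hln i)).1 h1 i
      (Finset.mem_univ i)
    exact sub_eq_zero.1 h2
  refine ⟨w, hw, c₁, hc₁, hwz, ?_, ?_⟩
  · intro i
    constructor
    · intro hA
      have h1 : (c₁ : ℤ) * ov w (lin y A B i) ≤ c₁ * 0 := by
        rw [hl, mul_zero]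
        exact (hBd i).1 hA
      exact le_of_mul_le_mul_left h1 hc0
    · intro j hj
      have h1 : (c₁ : ℤ) * ov w (lin y A B i) ≤ c₁ * ov w (y j) := by
        rw [hl, hwz, ← has]
        exact (hBd i).2 j hj
      exact le_of_mul_le_mul_left h1 hc0
  · intro D' h hh m' hm'
    have hR := res (d + 1) U L y A B hrat hne0 D' h hh
    have h1 := hord D' _ hR m' hm'
    have hh0 : h ≠ 0 := by
      rintro rfl
      rw [zero_mul] at hh
      exact zero_ne_one hh
    have h2 : ov w ((∏ i, lin y A B i) * h) = ov w (∏ i, lin y A B i) + ov w h :=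
      ov_mul w hp0 hh0
    rw [h2] at h1
    have h3 : ∑ j, a j = -∑ i, b i + ∑ l, ω l := by
      rw [Fin.sum_univ_succ, haz, Finset.sum_congr rfl fun l _ => has l]
    rw [h3] at h1
    push_cast at h1
    linarith

end Vale.Agent.P283.M647.H91
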